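import Claimed.Agent.R227.EndB.Defs

/-!
# Row 227 (Kakeya maximal), END227-A, file 4: dyadic cells of `Space`      (architect helper268)

`kaCell m j` = dyadic cube of side `2^(-m)` with index `j ∈ ℤ³`; `kaIdx M` = the indices with `|j_a| ≤ M`.
* `ka_sum_cells`       : additivity of the volume over cells.
* `ka_slab_subset`     : a slab is covered by the cells of `kaIdx M`.
* `ka_volume_slice_le` : the volume of a time slice of a slab.
* `ka_cell_compat`     : the position of the line at the time of the cell is close to the corner of the cell.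
-/

set_option autoImplicit false

namespace Claimed.Agent.R227

open Claims.C0388.Kakeya MeasureTheory
open scoped ENNReal

/-- dyadic cube of side `2^(-m)` -/
def kaCell (m : ℕ) (j : ℤ × ℤ × ℤ) : Set Space :=
  {x | ⌊x 0 * 2 ^ m⌋ = j.1 ∧ ⌊x 1 * 2 ^ m⌋ = j.2.1 ∧ ⌊x 2 * 2 ^ m⌋ = j.2.2}

/-- the indices in the box of size `M` -/
noncomputable def kaIdx (M : ℕ) : Finset (ℤ × ℤ × ℤ) :=
  Finset.Icc (-(M : ℤ)) M ×ˢ (Finset.Icc (-(M : ℤ)) M ×ˢ Finset.Icc (-(M : ℤ)) M)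

theorem ka_cells_eqns_cite : True := by
  have := @kaCell.eq_1
  have := @kaIdx.eq_1
  trivial

theorem ka_measurableSet_cell (m : ℕ) (j : ℤ × ℤ × ℤ) : MeasurableSet (kaCell m j) := by
  have h : kaCell m j = (fun x : Space => ⌊x 0 * 2 ^ m⌋) ⁻¹' {j.1} ∩
      ((fun x : Space => ⌊x 1 * 2 ^ m⌋) ⁻¹' {j.2.1} ∩ (fun x : Space => ⌊x 2 * 2 ^ m⌋) ⁻¹' {j.2.2}) := by
    ext x
    simp [kaCell]
  rw [h]
  have m0 : Measurable (fun x : Space => ⌊x 0 * 2 ^ m⌋) := by fun_prop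
  have m1 : Measurable (fun x : Space => ⌊x 1 * 2 ^ m⌋) := by fun_prop
  have m2 : Measurable (fun x : Space => ⌊x 2 * 2 ^ m⌋) := by fun_prop
  exact (m0 (measurableSet_singleton _)).inter
    ((m1 (measurableSet_singleton _)).inter (m2 (measurableSet_singleton _)))

theorem ka_disjoint_cell (m : ℕ) {j j' : ℤ × ℤ × ℤ} (h : j ≠ j') :
    Disjoint (kaCell m j) (kaCell m j') := by
  rw [Set.disjoint_left]
  rintro x ⟨a1, a2, a3⟩ ⟨b1, b2, b3⟩
  apply h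
  ext
  · rw [← a1, ← b1]
  · rw [← a2, ← b2]
  · rw [← a3, ← b3]

/-- additivity over cells. -/
theorem ka_sum_cells (A : Set Space) (hA : volume A ≠ ⊤) (m : ℕ) (F : Finset (ℤ × ℤ × ℤ)) :
    ∑ j ∈ F, (volume (A ∩ kaCell m j)).toReal = (volume (A ∩ ⋃ j ∈ F, kaCell m j)).toReal := by
  have h1 : volume (A ∩ ⋃ j ∈ F, kaCell m j) = ∑ j ∈ F, volume (A ∩ kaCell m j) := by
    have := measure_biUnion_finset (μ := volume.restrict A) (s := F) (f := kaCell m)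
      (fun j _ j' _ h => ka_disjoint_cell m h) (fun j _ => ka_measurableSet_cell m j)
    rw [Measure.restrict_apply
      (Finset.measurableSet_biUnion _ fun j _ => ka_measurableSet_cell m j)] at this
    simp only [Measure.restrict_apply (ka_measurableSet_cell m _)] at this
    rw [Set.inter_comm, this]
    exact Finset.sum_congr rfl fun j _ => by rw [Set.inter_comm]
  rw [h1, ENNReal.toReal_sum
    (fun j _ => ne_top_of_le_ne_top hA (measure_mono Set.inter_subset_left))]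

theorem ka_sum_cells_le (A S : Set Space) (hA : volume A ≠ ⊤) (m : ℕ) (F : Finset (ℤ × ℤ × ℤ))
    (hS : ∀ j ∈ F, kaCell m j ⊆ S) :
    ∑ j ∈ F, (volume (A ∩ kaCell m j)).toReal ≤ (volume (A ∩ S)).toReal := by
  rw [ka_sum_cells A hA m F]
  refine ENNReal.toReal_mono (ne_top_of_le_ne_top hA (measure_mono Set.inter_subset_left)) ?_
  refine measure_mono (Set.inter_subset_inter_right _ ?_)
  exact Set.iUnion₂_subset hS

theorem ka_sum_cells_eq (A : Set Space) (hA : volume A ≠ ⊤) (m : ℕ) (F : Finset (ℤ × ℤ × ℤ))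
    (hS : A ⊆ ⋃ j ∈ F, kaCell m j) :
    ∑ j ∈ F, (volume (A ∩ kaCell m j)).toReal = (volume A).toReal := by
  rw [ka_sum_cells A hA m F, Set.inter_eq_left.2 hS]

theorem ka_volume_box (l u : Fin 3 → ℝ) :
    volume {x : Space | ∀ i, l i ≤ x i ∧ x i ≤ u i} = ∏ i, ENNReal.ofReal (u i - l i) := by
  have h := (PiLp.volume_preserving_ofLp (Fin 3)).measure_preimage (s := Set.Icc l u)
    measurableSet_Icc.nullMeasurableSet
  rw [Real.volume_Icc_pi] at h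
  rw [← h]
  congr 1
  ext x
  simp [Set.mem_Icc, Pi.le_def, forall_and]

/-- floor data. -/
theorem ka_floor_bounds {y : ℝ} {m : ℕ} {k : ℤ} (h : ⌊y * 2 ^ m⌋ = k) :
    (k : ℝ) / 2 ^ m ≤ y ∧ y ≤ (k : ℝ) / 2 ^ m + 1 / 2 ^ m := by
  have h2 : (0 : ℝ) < 2 ^ m := by positivity
  have a := Int.floor_le (y * 2 ^ m)
  have b := Int.lt_floor_add_one (y * 2 ^ m)
  rw [h] at a b
  constructor
  · rw [div_le_iff₀ h2]; exact a
  · rw [← add_div, le_div_iff₀ h2]; exact b.le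

/-- the line at two nearby times. -/
theorem ka_line_close {r B x0 a v c c₀ s : ℝ} (hv : |v| ≤ B) (h : |x0 - a - c * v| ≤ r)
    (h1 : c₀ ≤ c) (h2 : c ≤ c₀ + s) : |x0 - (a + c₀ * v)| ≤ r + s * B := by
  have e : x0 - (a + c₀ * v) = (x0 - a - c * v) + (c - c₀) * v := by ring
  rw [e]
  refine (abs_add_le _ _).trans (add_le_add h ?_)
  rw [abs_mul, abs_of_nonneg (by linarith)]
  have hB : 0 ≤ B := (abs_nonneg _).trans hv
  exact mul_le_mul (by linarith) hv (abs_nonneg _) (by linarith)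

/-- the volume of a time slice of a slab. -/
theorem ka_volume_slice_le {r B : ℝ} {V A : ℝ × ℝ} (hV : |V.1| ≤ B ∧ |V.2| ≤ B) (hr : 0 ≤ r)
    (m : ℕ) (k : ℤ) :
    volume (kbSlab r V A ∩ {x | ⌊x 2 * 2 ^ m⌋ = k})
      ≤ ENNReal.ofReal ((2 * (r + 1 / 2 ^ m * B)) ^ 2 * (1 / 2 ^ m)) := by
  have hB : 0 ≤ B := (abs_nonneg _).trans hV.1
  set s : ℝ := 1 / 2 ^ m with hs
  have hs0 : 0 < s := by positivity
  set c₀ : ℝ := (k : ℝ) / 2 ^ m with hc₀
  set ρ : ℝ := r + s * B with hρ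
  have hρ0 : 0 ≤ ρ := by positivity
  set l : Fin 3 → ℝ := ![A.1 + c₀ * V.1 - ρ, A.2 + c₀ * V.2 - ρ, c₀] with hl
  set u : Fin 3 → ℝ := ![A.1 + c₀ * V.1 + ρ, A.2 + c₀ * V.2 + ρ, c₀ + s] with hu
  have hsub : kbSlab r V A ∩ {x | ⌊x 2 * 2 ^ m⌋ = k} ⊆ {x : Space | ∀ i, l i ≤ x i ∧ x i ≤ u i} := by
    rintro x ⟨⟨-, -, h0, h1⟩, hk⟩
    obtain ⟨b1, b2⟩ := ka_floor_bounds hk
    have q0 := abs_le.1 (ka_line_close hV.1 h0 b1 b2)
    have q1 := abs_le.1 (ka_line_close hV.2 h1 b1 b2)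
    intro i
    fin_cases i
    · simp only [hl, hu, Fin.zero_eta, Matrix.cons_val_zero]
      constructor <;> linarith [q0.1, q0.2]
    · simp only [hl, hu, Fin.mk_one, Matrix.cons_val_one, Matrix.cons_val_zero]
      constructor <;> linarith [q1.1, q1.2]
    · simp only [hl, hu, Fin.reduceFinMk, Matrix.cons_val]
      exact ⟨b1, b2⟩
  refine (measure_mono hsub).trans (le_of_eq ?_)
  rw [ka_volume_box, Fin.prod_univ_three]
  simp only [hl, hu, Matrix.cons_val_zero, Matrix.cons_val_one, Matrix.cons_val]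
  rw [← ENNReal.ofReal_mul (by linarith), ← ENNReal.ofReal_mul (by nlinarith)]
  congr 1
  ring

/-- the position of the line at the time of the cell is close to the corner of the cell. -/
theorem ka_cell_compat {r B : ℝ} {V A : ℝ × ℝ} (hV : |V.1| ≤ B ∧ |V.2| ≤ B) {m : ℕ}
    {j : ℤ × ℤ × ℤ} {x : Space} (hx : x ∈ kbSlab r V A) (hj : x ∈ kaCell m j) :
    |A.1 + (j.2.2 : ℝ) / 2 ^ m * V.1 - (j.1 : ℝ) / 2 ^ m| ≤ r + 1 / 2 ^ m * (B + 1) ∧
    |A.2 + (j.2.2 : ℝ) / 2 ^ m * V.2 - (j.2.1 : ℝ) / 2 ^ m| ≤ r + 1 / 2 ^ m * (B + 1) := by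
  obtain ⟨-, -, h0, h1⟩ := hx
  obtain ⟨j0, j1, j2⟩ := hj
  obtain ⟨b1, b2⟩ := ka_floor_bounds j2
  obtain ⟨c1, c2⟩ := ka_floor_bounds j0
  obtain ⟨d1, d2⟩ := ka_floor_bounds j1
  have q0 := abs_le.1 (ka_line_close hV.1 h0 b1 b2)
  have q1 := abs_le.1 (ka_line_close hV.2 h1 b1 b2)
  constructor
  · rw [abs_le]
    constructor <;> nlinarith [q0.1, q0.2]
  · rw [abs_le]
    constructor <;> nlinarith [q1.1, q1.2]

/-- a slab is covered by the cells of a finite box of indices. -/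
theorem ka_slab_subset {r B : ℝ} {V A : ℝ × ℝ} (hV : |V.1| ≤ B ∧ |V.2| ≤ B)
    (hA : |A.1| ≤ B ∧ |A.2| ≤ B) (hr : 0 ≤ r) (m M : ℕ) (hM : (2 * B + r + 1) * 2 ^ m ≤ M) :
    kbSlab r V A ⊆ ⋃ j ∈ kaIdx M, kaCell m j := by
  have hB : 0 ≤ B := (abs_nonneg _).trans hV.1
  have h2 : (1 : ℝ) ≤ 2 ^ m := one_le_pow₀ (by norm_num)
  have key : ∀ y : ℝ, |y| ≤ 2 * B + r + 1 → ⌊y * 2 ^ m⌋ ∈ Finset.Icc (-(M : ℤ)) M := by
    intro y hy
    rw [abs_le] at hy
    rw [Finset.mem_Icc]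
    constructor
    · rw [Int.le_floor]
      push_cast
      nlinarith [hy.1]
    · rw [Int.floor_le_iff]
      push_cast
      nlinarith [hy.2]
  have coord : ∀ x0 a v c : ℝ, |a| ≤ B → |v| ≤ B → 0 ≤ c → c ≤ 1 → |x0 - a - c * v| ≤ r →
      |x0| ≤ 2 * B + r + 1 := by
    intro x0 a v c ha hv c0 c1 h
    have e : x0 = (x0 - a - c * v) + a + c * v := by ring
    rw [e]
    have h3 : |c * v| ≤ B := by
      rw [abs_mul, abs_of_nonneg c0]
      calc c * |v| ≤ 1 * B := mul_le_mul c1 hv (abs_nonneg _) (by norm_num)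
        _ = B := one_mul _
    have := abs_add_le ((x0 - a - c * v) + a) (c * v)
    have := abs_add_le (x0 - a - c * v) a
    linarith
  rintro x ⟨c0, c1, h0, h1⟩
  refine Set.mem_iUnion₂.2 ⟨(⌊x 0 * 2 ^ m⌋, ⌊x 1 * 2 ^ m⌋, ⌊x 2 * 2 ^ m⌋), ?_, ⟨rfl, rfl, rfl⟩⟩
  rw [kaIdx, Finset.mem_product, Finset.mem_product]
  refine ⟨key _ (coord _ _ _ _ hA.1 hV.1 c0 c1 h0), key _ (coord _ _ _ _ hA.2 hV.2 c0 c1 h1),
    key _ ?_⟩
  rw [abs_of_nonneg c0]
  linarith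

end Claimed.Agent.R227
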