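import Claimed.Agent.R255.Base.Law

/-!
# Row 227 (Kakeya maximal), END227-A, file 1: entropy inequalities on `R255.FLaw`      (architect helper268)

Pure finite sums, no paper.
* `ka_gibbs`      : `∑ p r ≤ 1 ⟹ E log r ≤ 0`.
* `ka_mi_le`      : `P(g | i) ≤ κ m_g`, `∑ m_g ≤ M ⟹ I(T;G) ≤ log (κ M)`.
* `ka_entC_ge`    : `P(k | i) ≤ θ ⟹ H(C | T) ≥ - log θ`.
* `ka_mi_ge_cap`  : `T ∈ cap(D)` a.s. `⟹ I(T;D) ≥ E log (1 / P_T(cap D))`   (used in BR Lemma 4.4 as well).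
-/

set_option autoImplicit false

namespace Claimed.Agent.R227

open Claimed.Agent.R255
open scoped BigOperators
open Classical

variable {Ω : Type} [Fintype Ω] (P : FLaw Ω)

theorem ka_le_fib {α : Type} (X : Ω → α) (ω : Ω) : P.p ω ≤ P.fib X ω := by
  unfold FLaw.fib FLaw.pr
  calc P.p ω = if X ω = X ω then P.p ω else 0 := by simp
    _ ≤ _ := Finset.single_le_sum (f := fun ω' => if X ω' = X ω then P.p ω' else 0)
        (fun ω' _ => by split_ifs; exacts [P.nonneg _, le_rfl]) (Finset.mem_univ ω)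

theorem ka_fib_pos {α : Type} (X : Ω → α) {ω : Ω} (h : 0 < P.p ω) : 0 < P.fib X ω :=
  lt_of_lt_of_le h (ka_le_fib P X ω)

theorem ka_pr_nonneg (E : Ω → Prop) : 0 ≤ P.pr E :=
  Finset.sum_nonneg fun ω _ => by split_ifs; exacts [P.nonneg _, le_rfl]

theorem ka_ev_mono {f g : Ω → ℝ} (h : ∀ ω, 0 < P.p ω → f ω ≤ g ω) : P.ev f ≤ P.ev g := by
  unfold FLaw.ev
  refine Finset.sum_le_sum fun ω _ => ?_
  rcases eq_or_lt_of_le (P.nonneg ω) with h0 | h0
  · rw [← h0]; simp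
  · exact mul_le_mul_of_nonneg_left (h ω h0) h0.le

theorem ka_ev_congr {f g : Ω → ℝ} (h : ∀ ω, 0 < P.p ω → f ω = g ω) : P.ev f = P.ev g :=
  le_antisymm (ka_ev_mono P fun ω hω => (h ω hω).le) (ka_ev_mono P fun ω hω => (h ω hω).ge)

theorem ka_ev_add (f g : Ω → ℝ) : P.ev (fun ω => f ω + g ω) = P.ev f + P.ev g := by
  simp only [FLaw.ev, mul_add, Finset.sum_add_distrib]

theorem ka_ev_sub (f g : Ω → ℝ) : P.ev (fun ω => f ω - g ω) = P.ev f - P.ev g := by
  simp only [FLaw.ev, mul_sub, Finset.sum_sub_distrib]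

theorem ka_ev_neg (f : Ω → ℝ) : P.ev (fun ω => - f ω) = - P.ev f := by
  simp only [FLaw.ev, mul_neg, Finset.sum_neg_distrib]

theorem ka_ev_const (c : ℝ) : P.ev (fun _ => c) = c := by
  simp only [FLaw.ev, ← Finset.sum_mul, P.sum_one, one_mul]

/-- Gibbs' inequality. -/
theorem ka_gibbs (r : Ω → ℝ) (hr : ∀ ω, 0 < P.p ω → 0 < r ω) (hs : ∑ ω, P.p ω * r ω ≤ 1) :
    P.ev (fun ω => Real.log (r ω)) ≤ 0 := by
  unfold FLaw.ev
  have h1 : ∀ ω, P.p ω * Real.log (r ω) ≤ P.p ω * r ω - P.p ω := by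
    intro ω
    rcases eq_or_lt_of_le (P.nonneg ω) with h | h
    · rw [← h]; simp
    · have := Real.log_le_sub_one_of_pos (hr ω h)
      nlinarith
  calc _ ≤ ∑ ω, (P.p ω * r ω - P.p ω) := Finset.sum_le_sum fun ω _ => h1 ω
    _ = ∑ ω, P.p ω * r ω - 1 := by rw [Finset.sum_sub_distrib, P.sum_one]
    _ ≤ 0 := by linarith

/-- the information as an expectation. -/
theorem ka_mi_eq {α β : Type} (X : Ω → α) (Y : Ω → β) :
    P.mi X Y = P.ev (fun ω => Real.log (P.fib (FLaw.pair X Y) ω) - Real.log (P.fib X ω)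
      - Real.log (P.fib Y ω)) := by
  simp only [FLaw.mi, FLaw.ent, FLaw.ev, ← Finset.sum_add_distrib, ← Finset.sum_sub_distrib]
  refine Finset.sum_congr rfl fun ω _ => ?_
  ring

theorem ka_entC_eq {α β : Type} (X : Ω → α) (Y : Ω → β) :
    P.entC X Y = P.ev (fun ω => Real.log (P.fib Y ω) - Real.log (P.fib (FLaw.pair X Y) ω)) := by
  simp only [FLaw.entC, FLaw.ent, FLaw.ev, ← Finset.sum_sub_distrib]
  refine Finset.sum_congr rfl fun ω _ => ?_
  ring

/-- grouping by the values of an observation. -/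
theorem ka_sum_div_fib_le {Γ : Type} [Fintype Γ] (G : Ω → Γ) (h : Γ → ℝ) (hh : ∀ g, 0 ≤ h g) :
    ∑ ω, P.p ω * (h (G ω) / P.fib G ω) ≤ ∑ g, h g := by
  have h1 : ∀ ω, P.p ω * (h (G ω) / P.fib G ω)
      = ∑ g, if G ω = g then P.p ω * (h g / P.pr (fun ω' => G ω' = g)) else 0 := by
    intro ω
    rw [Finset.sum_ite_eq]
    simp [FLaw.fib]
  simp only [h1]
  rw [Finset.sum_comm]
  refine Finset.sum_le_sum fun g _ => ?_
  set q := P.pr (fun ω' => G ω' = g) with hq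
  have h3 : q = ∑ ω, if G ω = g then P.p ω else 0 := rfl
  have h2 : ∑ ω, (if G ω = g then P.p ω * (h g / q) else 0) = q * (h g / q) := by
    calc _ = (∑ ω, if G ω = g then P.p ω else 0) * (h g / q) := by
          rw [Finset.sum_mul]
          refine Finset.sum_congr rfl fun ω _ => ?_
          split_ifs <;> simp
      _ = _ := by rw [← h3]
  rw [h2]
  rcases eq_or_lt_of_le (ka_pr_nonneg P (fun ω' => G ω' = g)) with h0 | h0
  · rw [← hq] at h0
    rw [← h0]; simpa using hh g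
  · rw [mul_div_cancel₀ _ h0.ne']

/-- `P(g | i) ≤ κ m_g`, `∑ m_g ≤ M ⟹ I(T;G) ≤ log (κ M)`. -/
theorem ka_mi_le {ι Γ : Type} [Fintype Γ] (T : Ω → ι) (G : Ω → Γ) (m : Γ → ℝ) (hm : ∀ g, 0 ≤ m g)
    {κ M : ℝ} (hκ : 0 < κ) (hM : 0 < M) (hsum : ∑ g, m g ≤ M)
    (hdom : ∀ ω, 0 < P.p ω → P.fib (FLaw.pair T G) ω ≤ κ * m (G ω) * P.fib T ω) :
    P.mi T G ≤ Real.log (κ * M) := by
  have hmpos : ∀ ω, 0 < P.p ω → 0 < m (G ω) := by
    intro ω hω
    have h1 := ka_fib_pos P (FLaw.pair T G) hω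
    have h2 := ka_fib_pos P T hω
    have h3 := lt_of_lt_of_le h1 (hdom ω hω)
    by_contra hc
    have h4 : m (G ω) = 0 := le_antisymm (not_lt.1 hc) (hm _)
    rw [h4] at h3
    simp at h3
  have hg := ka_gibbs P (fun ω => m (G ω) / (M * P.fib G ω))
    (fun ω hω => div_pos (hmpos ω hω) (mul_pos hM (ka_fib_pos P G hω))) (by
      have h1 := ka_sum_div_fib_le P G m hm
      have h2 : ∑ ω, P.p ω * (m (G ω) / (M * P.fib G ω))
          = (∑ ω, P.p ω * (m (G ω) / P.fib G ω)) / M := by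
        rw [Finset.sum_div]
        refine Finset.sum_congr rfl fun ω _ => ?_
        rw [mul_comm M, ← div_div, mul_div_assoc]
      rw [h2, div_le_one hM]
      exact h1.trans hsum)
  rw [ka_mi_eq]
  calc _ ≤ P.ev (fun ω => Real.log (κ * M) + Real.log (m (G ω) / (M * P.fib G ω))) := by
        refine ka_ev_mono P fun ω hω => ?_
        have u0 := ka_fib_pos P T hω
        have v0 := ka_fib_pos P G hω
        have w0 := ka_fib_pos P (FLaw.pair T G) hω
        have m0 := hmpos ω hω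
        have h1 := Real.log_le_log w0 (hdom ω hω)
        rw [Real.log_mul (by positivity) u0.ne', Real.log_mul hκ.ne' m0.ne'] at h1
        rw [Real.log_mul hκ.ne' hM.ne', Real.log_div m0.ne' (by positivity),
          Real.log_mul hM.ne' v0.ne']
        linarith
    _ = Real.log (κ * M) + P.ev (fun ω => Real.log (m (G ω) / (M * P.fib G ω))) := by
        rw [ka_ev_add, ka_ev_const]
    _ ≤ _ := by linarith

/-- `P(k | i) ≤ θ ⟹ H(C | T) ≥ - log θ`. -/
theorem ka_entC_ge {α ι : Type} (C : Ω → α) (T : Ω → ι) {θ : ℝ} (hθ : 0 < θ)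
    (h : ∀ ω, 0 < P.p ω → P.fib (FLaw.pair C T) ω ≤ θ * P.fib T ω) :
    - Real.log θ ≤ P.entC C T := by
  rw [ka_entC_eq, ← ka_ev_const P (- Real.log θ)]
  refine ka_ev_mono P fun ω hω => ?_
  have u0 := ka_fib_pos P T hω
  have w0 := ka_fib_pos P (FLaw.pair C T) hω
  have h1 := Real.log_le_log w0 (h ω hω)
  rw [Real.log_mul hθ.ne' u0.ne'] at h1
  linarith

/-- the key sum for `ka_mi_ge_cap`. -/
theorem ka_cap_sum_le {ι Γ : Type} (T : Ω → ι) (D : Ω → Γ) (cap : Γ → ι → Prop)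
    (hs : ∀ ω, 0 < P.p ω → cap (D ω) (T ω)) :
    ∑ ω, P.p ω * (P.fib T ω * P.fib D ω /
      (P.fib (FLaw.pair T D) ω * P.pr (fun ω' => cap (D ω) (T ω')))) ≤ 1 := by
  set π : Ω → ℝ := fun ω => P.pr (fun ω' => cap (D ω) (T ω')) with hπ
  have hπ0 : ∀ ω, 0 ≤ π ω := fun ω => ka_pr_nonneg P _
  -- expansion into a triple sum
  have h1 : ∀ ω, P.p ω * (P.fib T ω * P.fib D ω / (P.fib (FLaw.pair T D) ω * π ω))
      = ∑ ω₂, ∑ ω₁, (if T ω₁ = T ω ∧ D ω₂ = D ω then
          P.p ω / (P.fib (FLaw.pair T D) ω * π ω) * (P.p ω₁ * P.p ω₂) else 0) := by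
    intro ω
    have e1 : P.fib T ω * P.fib D ω
        = ∑ ω₂, ∑ ω₁, (if T ω₁ = T ω ∧ D ω₂ = D ω then P.p ω₁ * P.p ω₂ else 0) := by
      unfold FLaw.fib FLaw.pr
      rw [Finset.sum_mul_sum, Finset.sum_comm]
      refine Finset.sum_congr rfl fun ω₂ _ => Finset.sum_congr rfl fun ω₁ _ => ?_
      by_cases a : T ω₁ = T ω <;> by_cases b : D ω₂ = D ω <;> simp [a, b]
    rw [mul_div_assoc', mul_comm (P.p ω), mul_div_assoc, e1, Finset.sum_mul]
    refine Finset.sum_congr rfl fun ω₂ _ => ?_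
    rw [Finset.sum_mul]
    refine Finset.sum_congr rfl fun ω₁ _ => ?_
    split_ifs
    · ring
    · simp
  show ∑ ω, P.p ω * (P.fib T ω * P.fib D ω / (P.fib (FLaw.pair T D) ω * π ω)) ≤ 1
  simp only [h1]
  rw [Finset.sum_comm]
  have h2 : ∀ ω₂ ω₁, ∑ ω, (if T ω₁ = T ω ∧ D ω₂ = D ω then
      P.p ω / (P.fib (FLaw.pair T D) ω * π ω) * (P.p ω₁ * P.p ω₂) else 0)
      ≤ if cap (D ω₂) (T ω₁) then P.p ω₁ * (P.p ω₂ / π ω₂) else 0 := by
    intro ω₂ ω₁
    set W : ℝ := P.pr (fun ω => T ω = T ω₁ ∧ D ω = D ω₂) with hW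
    have hW0 : 0 ≤ W := ka_pr_nonneg P _
    have e2 : ∀ ω, (if T ω₁ = T ω ∧ D ω₂ = D ω then
        P.p ω / (P.fib (FLaw.pair T D) ω * π ω) * (P.p ω₁ * P.p ω₂) else 0)
        = (if T ω = T ω₁ ∧ D ω = D ω₂ then P.p ω else 0) * (P.p ω₁ * P.p ω₂ / (W * π ω₂)) := by
      intro ω
      by_cases c : T ω₁ = T ω ∧ D ω₂ = D ω
      · have c' : T ω = T ω₁ ∧ D ω = D ω₂ := ⟨c.1.symm, c.2.symm⟩
        have e3 : P.fib (FLaw.pair T D) ω = W := by
          unfold FLaw.fib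
          rw [hW]
          congr 1
          funext ω'
          simp only [FLaw.pair, Prod.mk.injEq, c'.1, c'.2]
        have e4 : π ω = π ω₂ := by
          simp only [hπ, c'.2]
        rw [if_pos c, if_pos c', e3, e4]
        ring
      · have c' : ¬ (T ω = T ω₁ ∧ D ω = D ω₂) := fun h => c ⟨h.1.symm, h.2.symm⟩
        rw [if_neg c, if_neg c', zero_mul]
    simp only [e2]
    rw [← Finset.sum_mul]
    have e5 : ∑ ω, (if T ω = T ω₁ ∧ D ω = D ω₂ then P.p ω else 0) = W := by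
      rw [hW, FLaw.pr]
      refine Finset.sum_congr rfl fun ω _ => ?_
      split_ifs <;> rfl
    rw [e5]
    have hrhs : 0 ≤ if cap (D ω₂) (T ω₁) then P.p ω₁ * (P.p ω₂ / π ω₂) else 0 := by
      split_ifs
      · exact mul_nonneg (P.nonneg _) (div_nonneg (P.nonneg _) (hπ0 _))
      · exact le_rfl
    rcases eq_or_lt_of_le hW0 with h0 | h0
    · rw [← h0, zero_mul]
      exact hrhs
    · -- a point of the support in the fibre
      have hex : ∃ ω, (T ω = T ω₁ ∧ D ω = D ω₂) ∧ 0 < P.p ω := by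
        by_contra hne
        push Not at hne
        have : W = 0 := by
          rw [hW]
          unfold FLaw.pr
          refine Finset.sum_eq_zero fun ω _ => ?_
          split_ifs with c
          · exact le_antisymm (hne ω c) (P.nonneg ω)
          · rfl
        exact h0.ne' this
      obtain ⟨ω, ⟨c1, c2⟩, hp⟩ := hex
      have hc : cap (D ω₂) (T ω₁) := by
        have := hs ω hp
        rwa [c1, c2] at this
      rw [if_pos hc]
      refine le_of_eq ?_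
      field_simp
  calc _ ≤ ∑ ω₂, ∑ ω₁, (if cap (D ω₂) (T ω₁) then P.p ω₁ * (P.p ω₂ / π ω₂) else 0) := by
        refine Finset.sum_le_sum fun ω₂ _ => ?_
        rw [Finset.sum_comm]
        exact Finset.sum_le_sum fun ω₁ _ => h2 ω₂ ω₁
    _ = ∑ ω₂, π ω₂ * (P.p ω₂ / π ω₂) := by
        refine Finset.sum_congr rfl fun ω₂ _ => ?_
        have e6 : π ω₂ = ∑ ω₁, (if cap (D ω₂) (T ω₁) then P.p ω₁ else 0) := rfl
        calc _ = (∑ ω₁, (if cap (D ω₂) (T ω₁) then P.p ω₁ else 0)) * (P.p ω₂ / π ω₂) := by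
              rw [Finset.sum_mul]
              refine Finset.sum_congr rfl fun ω₁ _ => ?_
              split_ifs <;> simp
          _ = _ := by rw [← e6]
    _ ≤ ∑ ω₂, P.p ω₂ := by
        refine Finset.sum_le_sum fun ω₂ _ => ?_
        rcases eq_or_lt_of_le (hπ0 ω₂) with h0 | h0
        · rw [← h0, zero_mul]
          exact P.nonneg _
        · rw [mul_div_cancel₀ _ h0.ne']
    _ = 1 := P.sum_one

/-- `T ∈ cap(D)` almost surely `⟹ I(T;D) ≥ E log (1 / P_T(cap D))`. -/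
theorem ka_mi_ge_cap {ι Γ : Type} (T : Ω → ι) (D : Ω → Γ) (cap : Γ → ι → Prop)
    (hs : ∀ ω, 0 < P.p ω → cap (D ω) (T ω)) :
    P.ev (fun ω => - Real.log (P.pr (fun ω' => cap (D ω) (T ω')))) ≤ P.mi T D := by
  have hπpos : ∀ ω, 0 < P.p ω → 0 < P.pr (fun ω' => cap (D ω) (T ω')) := by
    intro ω hω
    refine lt_of_lt_of_le hω ?_
    unfold FLaw.pr
    calc P.p ω = if cap (D ω) (T ω) then P.p ω else 0 := by rw [if_pos (hs ω hω)]
      _ ≤ _ := Finset.single_le_sum (f := fun ω' => if cap (D ω) (T ω') then P.p ω' else 0)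
          (fun ω' _ => by split_ifs; exacts [P.nonneg _, le_rfl]) (Finset.mem_univ ω)
  have hg := ka_gibbs P (fun ω => P.fib T ω * P.fib D ω /
      (P.fib (FLaw.pair T D) ω * P.pr (fun ω' => cap (D ω) (T ω'))))
    (fun ω hω => div_pos (mul_pos (ka_fib_pos P T hω) (ka_fib_pos P D hω))
      (mul_pos (ka_fib_pos P _ hω) (hπpos ω hω))) (ka_cap_sum_le P T D cap hs)
  rw [ka_mi_eq, ← sub_nonneg, ← ka_ev_sub]
  rw [← neg_nonneg] at hg
  refine hg.trans (le_of_eq ?_)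
  rw [← ka_ev_neg]
  refine ka_ev_congr P fun ω hω => ?_
  have u0 := ka_fib_pos P T hω
  have v0 := ka_fib_pos P D hω
  have w0 := ka_fib_pos P (FLaw.pair T D) hω
  have p0 := hπpos ω hω
  rw [Real.log_div (by positivity) (by positivity), Real.log_mul u0.ne' v0.ne',
    Real.log_mul w0.ne' p0.ne']
  ring

end Claimed.Agent.R227
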