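import Claimed.Agent.R227.EndA.Ent

/-!
# Row 227 (Kakeya maximal), END227-A, file 2: the law of a weighted incidence matrix      (architect helper268)

`W : KaW ι J` = nonnegative weights `a i j` (`= |E ∩ T_i ∩ Q_j|`) with positive row sums.  `W.law` = uniform `i`, then `j` with probability `a i j / row i`.
* `KaW.mi_le`   : `a i j ≤ mE j`, `∑ mE ≤ vE`, `μ₀ ≤ row i`  `⟹ I(i ; j) ≤ log (vE / μ₀)`.
* `KaW.entC_ge` : `∑_{tm j = k} a i j ≤ σ`, `μ₀ ≤ row i`     `⟹ H(tm j | i) ≥ log (μ₀ / σ)`.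
-/

set_option autoImplicit false

namespace Claimed.Agent.R227

open Claimed.Agent.R255
open scoped BigOperators
open Classical

/-- a weighted incidence matrix -/
structure KaW (ι J : Type) [Fintype ι] [Fintype J] where
  a : ι → J → ℝ
  nonneg : ∀ i j, 0 ≤ a i j
  row_pos : ∀ i, 0 < ∑ j, a i j

namespace KaW

variable {ι J : Type} [Fintype ι] [Fintype J] [Nonempty ι] (W : KaW ι J)

/-- the row sums -/
noncomputable def row (i : ι) : ℝ := ∑ j, W.a i j

theorem card_pos : (0 : ℝ) < Fintype.card ι := by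
  exact_mod_cast Fintype.card_pos

omit [Nonempty ι] in
theorem row_pos' (i : ι) : 0 < W.row i := W.row_pos i

theorem sum_row (i : ι) : ∑ j, W.a i j / (Fintype.card ι * W.row i) = 1 / Fintype.card ι := by
  rw [← Finset.sum_div]
  have h1 := W.row_pos' i
  have h2 := card_pos (ι := ι)
  show W.row i / _ = _
  field_simp

/-- uniform `i`, then `j` with probability `a i j / row i` -/
noncomputable def law : FLaw (ι × J) where
  p := fun x => W.a x.1 x.2 / (Fintype.card ι * W.row x.1)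
  nonneg := fun x => div_nonneg (W.nonneg _ _) (mul_nonneg card_pos.le (W.row_pos' _).le)
  sum_one := by
    rw [Fintype.sum_prod_type]
    simp only [W.sum_row]
    rw [Finset.sum_const, Finset.card_univ, nsmul_eq_mul]
    have h2 := card_pos (ι := ι)
    field_simp

theorem law_p (x : ι × J) : W.law.p x = W.a x.1 x.2 / (Fintype.card ι * W.row x.1) := rfl

theorem eqns_cite : True := by
  have := @KaW.row.eq_1
  have := @KaW.law.eq_1
  trivial

theorem pr_fst (i : ι) : W.law.pr (fun x => x.1 = i) = 1 / Fintype.card ι := by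
  unfold FLaw.pr
  rw [Fintype.sum_prod_type]
  simp only [law_p]
  rw [Finset.sum_eq_single i]
  · simp only [if_true]
    exact W.sum_row i
  · intro i' _ hi
    simp [hi]
  · intro h
    exact absurd (Finset.mem_univ i) h

theorem fib_fst (x : ι × J) : W.law.fib Prod.fst x = 1 / Fintype.card ι :=
  W.pr_fst x.1

theorem fib_pair (x : ι × J) : W.law.fib (FLaw.pair Prod.fst Prod.snd) x = W.law.p x := by
  unfold FLaw.fib FLaw.pr
  rw [Finset.sum_eq_single x]
  · simp
  · intro y _ hy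
    have : ¬ (FLaw.pair Prod.fst Prod.snd y = FLaw.pair Prod.fst Prod.snd x) := by
      intro h
      exact hy h
    rw [if_neg this]
  · intro h
    exact absurd (Finset.mem_univ x) h

theorem fib_tm {α : Type} (tm : J → α) (x : ι × J) :
    W.law.fib (FLaw.pair (fun y : ι × J => tm y.2) Prod.fst) x
      = (∑ j, if tm j = tm x.2 then W.a x.1 j else 0) / (Fintype.card ι * W.row x.1) := by
  unfold FLaw.fib FLaw.pr
  rw [Fintype.sum_prod_type, Finset.sum_eq_single x.1]
  · rw [Finset.sum_div]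
    refine Finset.sum_congr rfl fun j _ => ?_
    by_cases h : tm j = tm x.2
    · simp [FLaw.pair, h, law_p]
    · simp [FLaw.pair, h]
  · intro i' _ hi
    refine Finset.sum_eq_zero fun j _ => ?_
    simp [FLaw.pair, hi]
  · intro h
    exact absurd (Finset.mem_univ x.1) h

/-- `I(i ; j) ≤ log (vE / μ₀)` -/
theorem mi_le (mE : J → ℝ) (hE : ∀ i j, W.a i j ≤ mE j) {μ₀ vE : ℝ} (hμ₀ : 0 < μ₀)
    (hμ : ∀ i, μ₀ ≤ W.row i) (hvE : 0 < vE) (hsum : ∑ j, mE j ≤ vE) :
    W.law.mi Prod.fst Prod.snd ≤ Real.log (vE / μ₀) := by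
  obtain ⟨i₀⟩ := ‹Nonempty ι›
  have hm0 : ∀ j, 0 ≤ mE j := fun j => (W.nonneg i₀ j).trans (hE i₀ j)
  have key := ka_mi_le W.law Prod.fst Prod.snd mE hm0 (κ := 1 / μ₀) (M := vE) (by positivity) hvE
    hsum (by
      intro x _
      rw [fib_pair, fib_fst, law_p]
      have hN := card_pos (ι := ι)
      have hr := W.row_pos' x.1
      rw [div_le_iff₀ (by positivity)]
      have h1 : 1 / μ₀ * mE x.2 * (1 / (Fintype.card ι : ℝ)) * (Fintype.card ι * W.row x.1)
          = mE x.2 * (W.row x.1 / μ₀) := by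
        field_simp
      rw [h1]
      have h2 : 1 ≤ W.row x.1 / μ₀ := by
        rw [one_le_div hμ₀]
        exact hμ x.1
      calc W.a x.1 x.2 ≤ mE x.2 := hE _ _
        _ = mE x.2 * 1 := (mul_one _).symm
        _ ≤ _ := mul_le_mul_of_nonneg_left h2 (hm0 _))
  have e : 1 / μ₀ * vE = vE / μ₀ := by ring
  rwa [e] at key

/-- `H(tm j | i) ≥ log (μ₀ / σ)` -/
theorem entC_ge {α : Type} (tm : J → α) {μ₀ σ : ℝ} (hμ₀ : 0 < μ₀) (hμ : ∀ i, μ₀ ≤ W.row i)
    (hσ0 : 0 < σ) (hσ : ∀ i k, (∑ j, if tm j = k then W.a i j else 0) ≤ σ) :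
    Real.log (μ₀ / σ) ≤ W.law.entC (fun y : ι × J => tm y.2) Prod.fst := by
  have key := ka_entC_ge W.law (fun y : ι × J => tm y.2) Prod.fst (θ := σ / μ₀) (by positivity) (by
    intro x _
    rw [fib_tm, fib_fst]
    have hN := card_pos (ι := ι)
    have hr := W.row_pos' x.1
    rw [div_le_iff₀ (by positivity)]
    have h1 : σ / μ₀ * (1 / (Fintype.card ι : ℝ)) * (Fintype.card ι * W.row x.1)
        = σ * (W.row x.1 / μ₀) := by
      field_simp
    rw [h1]
    have h2 : 1 ≤ W.row x.1 / μ₀ := by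
      rw [one_le_div hμ₀]
      exact hμ x.1
    calc _ ≤ σ := hσ _ _
      _ = σ * 1 := (mul_one _).symm
      _ ≤ _ := mul_le_mul_of_nonneg_left h2 hσ0.le)
  have e : - Real.log (σ / μ₀) = Real.log (μ₀ / σ) := by
    rw [← Real.log_inv, inv_div]
  rwa [e] at key

end KaW

end Claimed.Agent.R227
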