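import Claimed.Agent.R227.EndA.Sys
import Claimed.Agent.R255.Cl.Top

/-!
# Row 227 (Kakeya maximal), END227-A, file 6: `classical_growth ⟹ KAKL`      (architect helper268)

`ka_core` : one instance of (4.5) at `ε = d`, `t = L = 1`, `a = b = 0` gives `d² N ≤ C d^{-(γ+ν)} λ^{-3} |E|`.
`ka_main : KAKL` (contract of `EndB/Defs.lean`) from `R255.classical_growth` (BR Theorem 4.2).
-/

set_option autoImplicit false

namespace Claimed.Agent.R227

open Claimed.Agent.R255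
open Claims.C0388.Kakeya MeasureTheory
open scoped BigOperators ENNReal
open Classical

theorem ka_core {γ ν R B d lam : ℝ} (hγ : 0 ≤ γ) (hR : 1 ≤ R) (hB : 0 ≤ B) (hd0 : 0 < d)
    (hd1 : d < 1) (hlam : 0 < lam)
    (hU : ∀ (S : CSys) (Γ : Type) (G : S.Ω → Γ) (geo : Γ → Geo), S.Bdd (2 * B + R + 2) →
      S.IsLabel (R + B + 1) d 1 1 G geo → S.score γ d 1 G geo ≤ S.tau γ d 1 + γ * 1 + ν)
    {E : Set Space} (hEfin : volume E ≠ ⊤) {N : ℕ} (hN : 0 < N) (V A : Fin N → ℝ × ℝ)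
    (hVA : ∀ i, |(V i).1| ≤ B ∧ |(V i).2| ≤ B ∧ |(A i).1| ≤ B ∧ |(A i).2| ≤ B)
    (hsep : ∀ i j, i ≠ j → d ^ 2 ≤ ((V i).1 - (V j).1) ^ 2 + ((V i).2 - (V j).2) ^ 2)
    (hinc : ∀ i, ENNReal.ofReal (lam * d ^ 2) ≤ volume (E ∩ kbSlab (R * d) (V i) (A i))) :
    d ^ 2 * N ≤ 36 * (2 * B + R + 2) ^ 2 * ((2 * (R + B)) ^ 2) ^ 2 * d ^ (-(γ + ν))
      * lam ^ (-3 : ℝ) * (volume E).toReal := by
  have : Nonempty (Fin N) := ⟨⟨0, hN⟩⟩
  set m := tlev d 1 with hm
  have hs : 1 / (2 : ℝ) ^ m ≤ d := ka_tlev hd0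
  have hs0 : 0 < 1 / (2 : ℝ) ^ m := by positivity
  set M : ℕ := ⌈(2 * B + R * d + 1) * 2 ^ m⌉₊ with hM
  have hMle : (2 * B + R * d + 1) * 2 ^ m ≤ M := Nat.le_ceil _
  have hr : 0 ≤ R * d := by positivity
  set Ai : Fin N → Set Space := fun i => E ∩ kbSlab (R * d) (V i) (A i) with hAi
  have hAfin : ∀ i, volume (Ai i) ≠ ⊤ := fun i =>
    ne_top_of_le_ne_top hEfin (measure_mono Set.inter_subset_left)
  have hcov : ∀ i, Ai i ⊆ ⋃ j ∈ kaIdx M, kaCell m j := fun i =>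
    Set.inter_subset_right.trans
      (ka_slab_subset ⟨(hVA i).1, (hVA i).2.1⟩ ⟨(hVA i).2.2.1, (hVA i).2.2.2⟩ hr m M hMle)
  have hrow : ∀ i, ∑ j : ↥(kaIdx M), (volume (Ai i ∩ kaCell m j)).toReal
      = (volume (Ai i)).toReal := by
    intro i
    rw [Finset.sum_coe_sort (kaIdx M) (fun j => (volume (Ai i ∩ kaCell m j)).toReal)]
    exact ka_sum_cells_eq _ (hAfin i) m _ (hcov i)
  have hμ₀ : 0 < lam * d ^ 2 := by positivity
  have hμ : ∀ i, lam * d ^ 2 ≤ (volume (Ai i)).toReal := by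
    intro i
    have := ENNReal.toReal_mono (hAfin i) (hinc i)
    rwa [ENNReal.toReal_ofReal hμ₀.le] at this
  let W : KaW (Fin N) ↥(kaIdx M) :=
    { a := fun i j => (volume (Ai i ∩ kaCell m j)).toReal
      nonneg := fun _ _ => ENNReal.toReal_nonneg
      row_pos := fun i => by
        rw [hrow]
        exact lt_of_lt_of_le hμ₀ (hμ i) }
  have hWrow : ∀ i, lam * d ^ 2 ≤ W.row i := by
    intro i
    show _ ≤ ∑ j : ↥(kaIdx M), (volume (Ai i ∩ kaCell m j)).toReal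
    rw [hrow]
    exact hμ i
  set tm : ↥(kaIdx M) → ℤ := fun j => j.1.2.2 with htm
  set xc : ↥(kaIdx M) → ℝ × ℝ := fun j => ((j.1.1 : ℝ) / 2 ^ m, (j.1.2.1 : ℝ) / 2 ^ m) with hxc
  set mE : ↥(kaIdx M) → ℝ := fun j => (volume (E ∩ kaCell m j)).toReal with hmE
  set vE : ℝ := (volume E).toReal with hvE
  have hvE0 : 0 < vE := by
    have h1 := hμ ⟨0, hN⟩
    have h2 : (volume (Ai ⟨0, hN⟩)).toReal ≤ vE :=
      ENNReal.toReal_mono hEfin (measure_mono Set.inter_subset_left)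
    linarith
  have hE : ∀ i j, W.a i j ≤ mE j := by
    intro i j
    refine ENNReal.toReal_mono (ne_top_of_le_ne_top hEfin (measure_mono Set.inter_subset_left)) ?_
    exact measure_mono (Set.inter_subset_inter_left _ Set.inter_subset_left)
  have hsum : ∑ j, mE j ≤ vE := by
    rw [hmE, Finset.sum_coe_sort (kaIdx M) (fun j => (volume (E ∩ kaCell m j)).toReal)]
    have := ka_sum_cells_le E Set.univ hEfin m (kaIdx M) (fun j _ => Set.subset_univ _)
    rwa [Set.inter_univ] at this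
  set σ : ℝ := (2 * (R + B)) ^ 2 * d ^ 3 with hσdef
  have hσ0 : 0 < σ := by positivity
  have hσ : ∀ i k, (∑ j, if tm j = k then W.a i j else 0) ≤ σ := by
    intro i k
    have e1 : (∑ j : ↥(kaIdx M), if tm j = k then W.a i j else 0)
        = ∑ j ∈ (kaIdx M).filter (fun j => j.2.2 = k), (volume (Ai i ∩ kaCell m j)).toReal := by
      rw [Finset.sum_filter,
        ← Finset.sum_coe_sort (kaIdx M)
          (fun j => if j.2.2 = k then (volume (Ai i ∩ kaCell m j)).toReal else 0)]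
    rw [e1]
    refine (ka_sum_cells_le (Ai i) {x | ⌊x 2 * 2 ^ m⌋ = k} (hAfin i) m _ ?_).trans ?_
    · intro j hj x hx
      rw [← (Finset.mem_filter.1 hj).2]
      exact hx.2.2
    · refine ENNReal.toReal_le_of_le_ofReal hσ0.le ?_
      refine (measure_mono (Set.inter_subset_inter_left _ Set.inter_subset_right)).trans ?_
      refine (ka_volume_slice_le ⟨(hVA i).1, (hVA i).2.1⟩ hr m k).trans ?_
      refine ENNReal.ofReal_le_ofReal ?_
      have h1 : 2 * (R * d + 1 / 2 ^ m * B) ≤ 2 * (R + B) * d := by nlinarith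
      calc (2 * (R * d + 1 / 2 ^ m * B)) ^ 2 * (1 / 2 ^ m)
          ≤ (2 * (R + B) * d) ^ 2 * d :=
            mul_le_mul (pow_le_pow_left₀ (by positivity) h1 2) hs hs0.le (by positivity)
        _ = σ := by rw [hσdef]; ring
  -- the system
  set S : CSys := kaSys W V A tm m with hS
  have hscore := ka_score_ge W V A tm xc (γ := γ) hd0 hd1 mE hE hμ₀ hWrow hvE0 hsum hσ0 hσ
  have hBdd : S.Bdd (2 * B + R + 2) := by
    intro ω _
    obtain ⟨v1, v2, a1, a2⟩ := hVA ω.1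
    refine ⟨by show |(V ω.1).1| ≤ _; linarith, by show |(V ω.1).2| ≤ _; linarith,
      by show |(A ω.1).1| ≤ _; linarith, by show |(A ω.1).2| ≤ _; linarith, ?_⟩
    show |(tm ω.2 : ℝ) / 2 ^ m| ≤ _
    have hj : (ω.2 : ↥(kaIdx M)).1 ∈ Finset.Icc (-(M : ℤ)) M ×ˢ
        (Finset.Icc (-(M : ℤ)) M ×ˢ Finset.Icc (-(M : ℤ)) M) := (ω.2 : ↥(kaIdx M)).2
    rw [Finset.mem_product, Finset.mem_product, Finset.mem_Icc, Finset.mem_Icc,
      Finset.mem_Icc] at hj
    obtain ⟨l1, l2⟩ := hj.2.2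
    have l1' : -(M : ℝ) ≤ (tm ω.2 : ℝ) := by exact_mod_cast l1
    have l2' : (tm ω.2 : ℝ) ≤ (M : ℝ) := by exact_mod_cast l2
    have hM2 : (M : ℝ) < (2 * B + R * d + 1) * 2 ^ m + 1 := Nat.ceil_lt_add_one (by positivity)
    have h2m : (0 : ℝ) < 2 ^ m := by positivity
    have h2m1 : (1 : ℝ) ≤ 2 ^ m := one_le_pow₀ (by norm_num)
    rw [abs_div, abs_of_pos h2m, div_le_iff₀ h2m, abs_le]
    have hRd : R * d ≤ R := by nlinarith
    constructor <;> nlinarith
  have hLab : S.IsLabel (R + B + 1) d 1 1 (Γ := ↥(kaIdx M)) Prod.snd (kaGeo tm xc m) := by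
    intro ω hω
    have ha : 0 < W.a ω.1 ω.2 := by
      by_contra hc
      have h0 : W.a ω.1 ω.2 = 0 := le_antisymm (not_lt.1 hc) (W.nonneg _ _)
      have : S.P.p ω = 0 := by
        show W.a ω.1 ω.2 / _ = 0
        rw [h0, zero_div]
      exact hω.ne' this
    have hne : (Ai ω.1 ∩ kaCell m ω.2).Nonempty := by
      refine nonempty_of_measure_ne_zero (μ := volume) ?_
      intro h0
      have : W.a ω.1 ω.2 = 0 := by
        show (volume (Ai ω.1 ∩ kaCell m ω.2)).toReal = 0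
        rw [h0]; rfl
      exact ha.ne' this
    obtain ⟨x, hx1, hx2⟩ := hne
    obtain ⟨q1, q2⟩ := ka_cell_compat ⟨(hVA ω.1).1, (hVA ω.1).2.1⟩ hx1.2 hx2
    obtain ⟨v1, v2, -, -⟩ := hVA ω.1
    have hK : R * d + 1 / 2 ^ m * (B + 1) ≤ (R + B + 1) * d := by nlinarith
    refine ⟨le_rfl, le_rfl, by show (0 : ℝ) + 1 ≤ 1; norm_num, ?_, ⟨?_, ?_⟩, ⟨?_, ?_⟩⟩
    · show |(tm ω.2 : ℝ) / 2 ^ m - (tm ω.2 : ℝ) / 2 ^ m| ≤ _
      rw [sub_self, abs_zero]
      positivity
    · show |ip (V ω.1 - 0) (tang 0)| ≤ (R + B + 1) * d ^ (0 : ℝ)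
      simp only [ip, tang, sub_zero, Real.cos_zero, Real.sin_zero, mul_one, mul_zero, add_zero,
        Real.rpow_zero]
      linarith
    · show |ip (V ω.1 - 0) (nrm 0)| ≤ (R + B + 1) * d ^ (0 : ℝ)
      simp only [ip, nrm, sub_zero, Real.cos_zero, Real.sin_zero, mul_one, neg_zero, mul_zero,
        zero_add, Real.rpow_zero]
      linarith
    · show |ip (A ω.1 + ((tm ω.2 : ℝ) / 2 ^ m) • V ω.1 - xc ω.2) (tang 0)|
        ≤ (R + B + 1) * d ^ ((0 : ℝ) + 1)
      simp only [ip, tang, Real.cos_zero, Real.sin_zero, mul_one, mul_zero, add_zero, zero_add,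
        Real.rpow_one, Prod.fst_sub, Prod.fst_add, Prod.smul_fst, smul_eq_mul]
      exact q1.trans hK
    · show |ip (A ω.1 + ((tm ω.2 : ℝ) / 2 ^ m) • V ω.1 - xc ω.2) (nrm 0)|
        ≤ (R + B + 1) * d ^ ((0 : ℝ) + 1)
      simp only [ip, nrm, Real.cos_zero, Real.sin_zero, mul_one, neg_zero, mul_zero, zero_add,
        Real.rpow_one, Prod.snd_sub, Prod.snd_add, Prod.smul_snd, smul_eq_mul]
      exact q2.trans hK
  have htau := ka_tau_le S (γ := γ) (ε := d) (B := 2 * B + R + 2) hγ hd0 hd1 (by linarith)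
    (fun i => W.pr_fst i) hsep (fun i => ⟨by
      have := (hVA i).1
      show |(V i).1| ≤ _
      linarith, by
      have := (hVA i).2.1
      show |(V i).2| ≤ _
      linarith⟩)
  have hcard : (Fintype.card S.ι : ℝ) = N := by
    show ((Fintype.card (Fin N) : ℕ) : ℝ) = N
    rw [Fintype.card_fin]
  rw [hcard] at htau
  have hfin := hscore.trans ((hU S _ Prod.snd (kaGeo tm xc m) hBdd hLab).trans
    (add_le_add_left (add_le_add_left htau _) _))
  exact ka_arith hd0 hd1 hlam hvE0 (by exact_mod_cast hN) (by positivity) (by positivity) hfin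

/-- **`KAKL` from the uniform finite form (4.5) of BR Theorem 4.2.** -/
theorem ka_of_univBound (H : ∀ γ : ℝ, 0 < γ → γ < 1 → UnivBound γ γ) : KAKL := by
  intro η R B hη hR
  set B₁ : ℝ := |B| with hB₁
  have hB₁0 : 0 ≤ B₁ := abs_nonneg B
  set γ : ℝ := min (η / 2) (1 / 2) with hγ
  have hγ0 : 0 < γ := lt_min (by positivity) (by norm_num)
  have hγ1 : γ < 1 := lt_of_le_of_lt (min_le_right _ _) (by norm_num)
  have hγη : γ ≤ η / 2 := min_le_left _ _
  obtain ⟨ε₀, h0, h1, HU⟩ := H γ hγ0 hγ1 (R + B₁ + 1) (2 * B₁ + R + 2) 1 1 (η / 2) one_pos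
    (by positivity)
  set C₁ : ℝ := 36 * (2 * B₁ + R + 2) ^ 2 with hC₁
  set C₂ : ℝ := C₁ * ((2 * (R + B₁)) ^ 2) ^ 2 with hC₂
  have hC₁0 : 0 < C₁ := by positivity
  have hC₂0 : 0 < C₂ := by positivity
  refine ⟨C₂ + C₁ / ε₀ ^ 2, by positivity, ?_⟩
  intro d hd0 hd1 lam hl0 hl1 E _ N V A hVA hsep hinc
  rcases Nat.eq_zero_or_pos N with rfl | hN
  · simp
  have hdη : 0 < d ^ (-η) := Real.rpow_pos_of_pos hd0 _
  have hl3 : 0 < lam ^ (-3 : ℝ) := Real.rpow_pos_of_pos hl0 _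
  by_cases hfin : volume E = ⊤
  · rw [hfin, ENNReal.mul_top]
    · exact le_top
    · rw [Ne, ENNReal.ofReal_eq_zero, not_le]
      positivity
  have hVA' : ∀ i, |(V i).1| ≤ B₁ ∧ |(V i).2| ≤ B₁ ∧ |(A i).1| ≤ B₁ ∧ |(A i).2| ≤ B₁ := fun i =>
    ⟨(hVA i).1.trans (le_abs_self B), (hVA i).2.1.trans (le_abs_self B),
      (hVA i).2.2.1.trans (le_abs_self B), (hVA i).2.2.2.trans (le_abs_self B)⟩
  have hvE0 : 0 ≤ (volume E).toReal := ENNReal.toReal_nonneg
  have key : d ^ 2 * N ≤ (C₂ + C₁ / ε₀ ^ 2) * d ^ (-η) * lam ^ (-3 : ℝ) * (volume E).toReal := by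
    by_cases hdε : d < ε₀
    · have hc := ka_core hγ0.le hR hB₁0 hd0 hd1 hl0
        (fun S Γ G geo hb hl => HU d hd0 hdε 1 1 le_rfl le_rfl le_rfl S Γ G geo hb hl)
        hfin hN V A hVA' hsep hinc
      have hpow : d ^ (-(γ + η / 2)) ≤ d ^ (-η) :=
        Real.rpow_le_rpow_of_exponent_ge hd0 hd1.le (by linarith)
      refine hc.trans ?_
      refine mul_le_mul_of_nonneg_right (mul_le_mul_of_nonneg_right ?_ hl3.le) hvE0
      calc 36 * (2 * B₁ + R + 2) ^ 2 * ((2 * (R + B₁)) ^ 2) ^ 2 * d ^ (-(γ + η / 2))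
          = C₂ * d ^ (-(γ + η / 2)) := by rw [hC₂, hC₁]
        _ ≤ C₂ * d ^ (-η) := mul_le_mul_of_nonneg_left hpow hC₂0.le
        _ ≤ (C₂ + C₁ / ε₀ ^ 2) * d ^ (-η) :=
            mul_le_mul_of_nonneg_right (by
              have : 0 < C₁ / ε₀ ^ 2 := by positivity
              linarith) hdη.le
    · push Not at hdε
      have hpk := ka_pack V (ε := d) (p := 2 * B₁ + R + 2) (q := 2 * B₁ + R + 2) (th := 0)
        (0 : ℝ × ℝ) hd0 (by linarith) (by linarith) hsep Finset.univ (by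
          intro i _
          obtain ⟨v1, v2, -, -⟩ := hVA' i
          simp only [ip, tang, nrm, sub_zero, Real.cos_zero, Real.sin_zero, mul_one, mul_zero,
            add_zero, neg_zero, zero_add]
          constructor <;> linarith)
      rw [Finset.card_univ, Fintype.card_fin, le_div_iff₀ (by positivity)] at hpk
      have h2 : d ^ 2 * N ≤ C₁ := by
        rw [hC₁]
        nlinarith
      have h3 : lam * ε₀ ^ 2 ≤ (volume E).toReal := by
        have a1 := ENNReal.toReal_mono hfin ((hinc ⟨0, hN⟩).trans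
          (measure_mono Set.inter_subset_left))
        rw [ENNReal.toReal_ofReal (by positivity)] at a1
        have a2 : ε₀ ^ 2 ≤ d ^ 2 := pow_le_pow_left₀ h0.le hdε 2
        nlinarith
      have h4 : 1 ≤ d ^ (-η) :=
        Real.one_le_rpow_of_pos_of_le_one_of_nonpos hd0 hd1.le (by linarith)
      have e3 : lam ^ (-3 : ℝ) = 1 / lam ^ 3 := by
        rw [Real.rpow_neg hl0.le, one_div]
        congr 1
        exact_mod_cast Real.rpow_natCast lam 3
      have h5 : 1 ≤ lam ^ (-3 : ℝ) * lam := by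
        rw [e3, one_div_mul_eq_div, one_le_div (by positivity)]
        have : lam ^ 2 ≤ 1 := pow_le_one₀ hl0.le hl1
        nlinarith
      calc d ^ 2 * N ≤ C₁ := h2
        _ = C₁ / ε₀ ^ 2 * 1 * 1 * ε₀ ^ 2 := by field_simp
        _ ≤ C₁ / ε₀ ^ 2 * d ^ (-η) * (lam ^ (-3 : ℝ) * lam) * ε₀ ^ 2 := by
            refine mul_le_mul_of_nonneg_right ?_ (by positivity)
            exact mul_le_mul (mul_le_mul_of_nonneg_left h4 (by positivity)) h5 (by norm_num)
              (by positivity)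
        _ = C₁ / ε₀ ^ 2 * d ^ (-η) * lam ^ (-3 : ℝ) * (lam * ε₀ ^ 2) := by ring
        _ ≤ C₁ / ε₀ ^ 2 * d ^ (-η) * lam ^ (-3 : ℝ) * (volume E).toReal :=
            mul_le_mul_of_nonneg_left h3 (by positivity)
        _ ≤ _ := by
            refine mul_le_mul_of_nonneg_right (mul_le_mul_of_nonneg_right
              (mul_le_mul_of_nonneg_right ?_ hdη.le) hl3.le) hvE0
            linarith
  calc ENNReal.ofReal (d ^ 2 * N)
      ≤ ENNReal.ofReal ((C₂ + C₁ / ε₀ ^ 2) * d ^ (-η) * lam ^ (-3 : ℝ) * (volume E).toReal) :=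
        ENNReal.ofReal_le_ofReal key
    _ = ENNReal.ofReal ((C₂ + C₁ / ε₀ ^ 2) * d ^ (-η) * lam ^ (-3 : ℝ))
        * ENNReal.ofReal (volume E).toReal := ENNReal.ofReal_mul (by positivity)
    _ = _ := by rw [ENNReal.ofReal_toReal hfin]

/-- **the contract of END227-B.** -/
theorem ka_main : KAKL := ka_of_univBound classical_growth

end Claimed.Agent.R227
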