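import Claimed.Agent.R227.EndA.Ent
import Claimed.Agent.R255.Base.Classical

/-!
# Row 227 (Kakeya maximal), END227-A, file 3: packing and the root supremum      (architect helper268)

* `ka_pack`   : an `ε`-separated family in a rotated rectangle with half sides `p, q ≥ ε` has at most `36 p q / ε²` members.
* `ka_tau_le` : uniform particle law on `N` lines with `ε`-separated slopes: `τ_1(T) ≤ log (36 B² / (ε² N)) / ℓ`.
-/

set_option autoImplicit false

namespace Claimed.Agent.R227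

open Claimed.Agent.R255
open scoped BigOperators
open Classical

theorem ka_rot (z : ℝ × ℝ) (th : ℝ) : ip z (tang th) ^ 2 + ip z (nrm th) ^ 2 = z.1 ^ 2 + z.2 ^ 2 := by
  have h := Real.sin_sq_add_cos_sq th
  simp only [ip, tang, nrm]
  linear_combination (z.1 ^ 2 + z.2 ^ 2) * h

theorem ka_ip_sub (u v w : ℝ × ℝ) : ip (u - v) w = ip u w - ip v w := by
  simp only [ip, Prod.fst_sub, Prod.snd_sub]
  ring

theorem ka_card_Icc_floor {y : ℝ} (hy : 2 ≤ y) :
    ((Finset.Icc ⌊-y⌋ ⌊y⌋).card : ℝ) ≤ 3 * y := by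
  rw [Int.card_Icc]
  have h1 : ⌊-y⌋ ≤ ⌊y⌋ + 1 := by
    have : ⌊-y⌋ ≤ ⌊y⌋ := Int.floor_le_floor (by linarith)
    omega
  have h2 : (((⌊y⌋ + 1 - ⌊-y⌋).toNat : ℤ) : ℝ) = ((⌊y⌋ + 1 - ⌊-y⌋ : ℤ) : ℝ) := by
    rw [Int.toNat_of_nonneg (by omega)]
  have h3 : (((⌊y⌋ + 1 - ⌊-y⌋).toNat : ℕ) : ℝ) = (((⌊y⌋ + 1 - ⌊-y⌋).toNat : ℤ) : ℝ) := by
    norm_cast
  rw [h3, h2]
  push_cast
  have h4 := Int.floor_le y
  have h5 := Int.lt_floor_add_one (-y)
  linarith

/-- packing in a rotated rectangle. -/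
theorem ka_pack {ι : Type} (V : ι → ℝ × ℝ) {ε p q th : ℝ} (vc : ℝ × ℝ) (hε : 0 < ε) (hp : ε ≤ p)
    (hq : ε ≤ q)
    (hsep : ∀ i j, i ≠ j → ε ^ 2 ≤ ((V i).1 - (V j).1) ^ 2 + ((V i).2 - (V j).2) ^ 2)
    (s : Finset ι)
    (hs : ∀ i ∈ s, |ip (V i - vc) (tang th)| ≤ p ∧ |ip (V i - vc) (nrm th)| ≤ q) :
    (s.card : ℝ) ≤ 36 * p * q / ε ^ 2 := by
  set f : ι → ℤ × ℤ := fun i =>
    (⌊2 * ip (V i - vc) (tang th) / ε⌋, ⌊2 * ip (V i - vc) (nrm th) / ε⌋) with hf
  set t : Finset (ℤ × ℤ) := Finset.Icc ⌊-(2 * p / ε)⌋ ⌊2 * p / ε⌋ ×ˢ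
    Finset.Icc ⌊-(2 * q / ε)⌋ ⌊2 * q / ε⌋ with ht
  have hmaps : ∀ i ∈ s, f i ∈ t := by
    intro i hi
    obtain ⟨h1, h2⟩ := hs i hi
    rw [abs_le] at h1 h2
    rw [ht, Finset.mem_product, Finset.mem_Icc, Finset.mem_Icc]
    refine ⟨⟨Int.floor_le_floor ?_, Int.floor_le_floor ?_⟩,
      ⟨Int.floor_le_floor ?_, Int.floor_le_floor ?_⟩⟩
    · rw [← neg_div, div_le_div_iff_of_pos_right hε]; linarith
    · rw [div_le_div_iff_of_pos_right hε]; linarith
    · rw [← neg_div, div_le_div_iff_of_pos_right hε]; linarith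
    · rw [div_le_div_iff_of_pos_right hε]; linarith
  have hinj : Set.InjOn f s := by
    intro i _ j _ hij
    by_contra hne
    have h1 : ⌊2 * ip (V i - vc) (tang th) / ε⌋ = ⌊2 * ip (V j - vc) (tang th) / ε⌋ :=
      congrArg Prod.fst hij
    have h2 : ⌊2 * ip (V i - vc) (nrm th) / ε⌋ = ⌊2 * ip (V j - vc) (nrm th) / ε⌋ :=
      congrArg Prod.snd hij
    have a1 := Int.abs_sub_lt_one_of_floor_eq_floor h1
    have a2 := Int.abs_sub_lt_one_of_floor_eq_floor h2
    have e1 : 2 * ip (V i - vc) (tang th) / ε - 2 * ip (V j - vc) (tang th) / ε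
        = 2 * ip (V i - V j) (tang th) / ε := by
      rw [ka_ip_sub, ka_ip_sub, ka_ip_sub]; ring
    have e2 : 2 * ip (V i - vc) (nrm th) / ε - 2 * ip (V j - vc) (nrm th) / ε
        = 2 * ip (V i - V j) (nrm th) / ε := by
      rw [ka_ip_sub, ka_ip_sub, ka_ip_sub]; ring
    rw [e1, abs_div, abs_of_pos hε, div_lt_one hε, abs_mul, abs_two] at a1
    rw [e2, abs_div, abs_of_pos hε, div_lt_one hε, abs_mul, abs_two] at a2
    have r := ka_rot (V i - V j) th
    have s1 := hsep i j hne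
    simp only [Prod.fst_sub, Prod.snd_sub] at r
    have b1 : ip (V i - V j) (tang th) ^ 2 ≤ (ε / 2) ^ 2 := by
      rw [← sq_abs]
      exact pow_le_pow_left₀ (abs_nonneg _) (by linarith) 2
    have b2 : ip (V i - V j) (nrm th) ^ 2 ≤ (ε / 2) ^ 2 := by
      rw [← sq_abs]
      exact pow_le_pow_left₀ (abs_nonneg _) (by linarith) 2
    nlinarith
  have hcard := Finset.card_le_card_of_injOn f hmaps hinj
  have hp2 : 2 ≤ 2 * p / ε := by
    rw [le_div_iff₀ hε]; linarith
  have hq2 : 2 ≤ 2 * q / ε := by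
    rw [le_div_iff₀ hε]; linarith
  have c1 := ka_card_Icc_floor hp2
  have c2 := ka_card_Icc_floor hq2
  calc (s.card : ℝ) ≤ (t.card : ℝ) := by exact_mod_cast hcard
    _ = ((Finset.Icc ⌊-(2 * p / ε)⌋ ⌊2 * p / ε⌋).card : ℝ)
        * ((Finset.Icc ⌊-(2 * q / ε)⌋ ⌊2 * q / ε⌋).card : ℝ) := by
        rw [ht, Finset.card_product]; push_cast; ring
    _ ≤ (3 * (2 * p / ε)) * (3 * (2 * q / ε)) :=
        mul_le_mul c1 c2 (Nat.cast_nonneg _) (by positivity)
    _ = _ := by field_simp; ring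

/-- the probability of an event which depends on a finite valued observation. -/
theorem ka_pr_comp {Ω ι : Type} [Fintype Ω] [Fintype ι] (P : FLaw Ω) (T : Ω → ι) (Q : ι → Prop) :
    P.pr (fun ω => Q (T ω)) = ∑ i, if Q i then P.pr (fun ω => T ω = i) else 0 := by
  unfold FLaw.pr
  have h1 : ∀ i, (if Q i then ∑ ω, (if T ω = i then P.p ω else 0) else 0)
      = ∑ ω, (if T ω = i then (if Q (T ω) then P.p ω else 0) else 0) := by
    intro i
    split_ifs with hi
    · refine Finset.sum_congr rfl fun ω _ => ?_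
      split_ifs with a b
      · rfl
      · rw [a] at b; exact absurd hi b
      · rfl
    · refine (Finset.sum_eq_zero fun ω _ => ?_).symm
      split_ifs with a b
      · rw [a] at b; exact absurd b hi
      · rfl
      · rfl
  simp only [h1]
  rw [Finset.sum_comm]
  refine Finset.sum_congr rfl fun ω _ => ?_
  rw [Finset.sum_ite_eq]
  simp

theorem ka_pr_cap_pos {Ω ι Γ : Type} [Fintype Ω] (P : FLaw Ω) (T : Ω → ι) (D : Ω → Γ)
    (cap : Γ → ι → Prop) {ω : Ω} (hω : 0 < P.p ω) (hs : cap (D ω) (T ω)) :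
    0 < P.pr (fun ω' => cap (D ω) (T ω')) := by
  refine lt_of_lt_of_le hω ?_
  unfold FLaw.pr
  calc P.p ω = if cap (D ω) (T ω) then P.p ω else 0 := by rw [if_pos hs]
    _ ≤ _ := Finset.single_le_sum (f := fun ω' => if cap (D ω) (T ω') then P.p ω' else 0)
        (fun ω' _ => by split_ifs; exacts [P.nonneg _, le_rfl]) (Finset.mem_univ ω)

theorem ka_lg_pos {ε : ℝ} (h0 : 0 < ε) (h1 : ε < 1) : 0 < lg ε := by
  unfold lg
  exact Real.log_pos (by rw [lt_div_iff₀ h0]; linarith)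

theorem ka_log_eq_neg_lg (ε : ℝ) : Real.log ε = - lg ε := by
  unfold lg
  rw [one_div, Real.log_inv, neg_neg]

/-- the root supremum of `N` equally likely lines with `ε`-separated slopes. -/
theorem ka_tau_le (S : CSys) [Fintype S.ι] [Nonempty S.ι] {γ ε B : ℝ} (hγ : 0 ≤ γ) (hε0 : 0 < ε)
    (hε1 : ε < 1) (hB : 1 ≤ B)
    (huni : ∀ i, S.P.pr (fun ω => S.T ω = i) = 1 / Fintype.card S.ι)
    (hsep : ∀ i j, i ≠ j → ε ^ 2 ≤ ((S.V i).1 - (S.V j).1) ^ 2 + ((S.V i).2 - (S.V j).2) ^ 2)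
    (hV : ∀ i, |(S.V i).1| ≤ B ∧ |(S.V i).2| ≤ B) :
    S.tau γ ε 1 ≤ Real.log (36 * B ^ 2 / (ε ^ 2 * Fintype.card S.ι)) / lg ε := by
  have hℓ := ka_lg_pos hε0 hε1
  have hN : (0 : ℝ) < Fintype.card S.ι := by exact_mod_cast Fintype.card_pos
  set c : ℝ := 36 * B ^ 2 / (ε ^ 2 * Fintype.card S.ι) with hc
  have hc0 : 0 < c := by positivity
  refine Real.sSup_le ?_ ?_
  · rintro x ⟨Ω', _, P', T', Γ, D, geo, hT, hcomp, rfl⟩
    set cap : Γ → S.ι → Prop := fun δ i => (geo δ).RootCompat 1 ε 1 (S.V i) (S.A i) with hcap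
    have hL3 := ka_mi_ge_cap P' T' D cap hcomp
    -- pointwise bound
    have hpt : ∀ ω, 0 < P'.p ω →
        wt γ (geo (D ω)) - (- Real.log (P'.pr (fun ω' => cap (D ω) (T' ω')))) / lg ε
          ≤ Real.log c / lg ε := by
      intro ω hω
      obtain ⟨hb0, hba, ha1, hVr, -⟩ := hcomp ω hω
      set a := (geo (D ω)).a
      set b := (geo (D ω)).b
      have hπ0 := ka_pr_cap_pos P' T' D cap hω (hcomp ω hω)
      have hπ : P'.pr (fun ω' => cap (D ω) (T' ω')) ≤ c * ε ^ (a + b) := by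
        rw [ka_pr_comp P' T' (cap (D ω))]
        simp only [hT, huni]
        rw [← Finset.sum_filter, Finset.sum_const, nsmul_eq_mul]
        have hpk := ka_pack S.V (ε := ε) (p := ε ^ b) (q := ε ^ a) (th := (geo (D ω)).th)
          (geo (D ω)).vc hε0
          (by
            have := Real.rpow_le_rpow_of_exponent_ge hε0 hε1.le (hba.trans ha1)
            rwa [Real.rpow_one] at this)
          (by
            have := Real.rpow_le_rpow_of_exponent_ge hε0 hε1.le ha1
            rwa [Real.rpow_one] at this)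
          hsep (Finset.univ.filter fun i => cap (D ω) i) (by
            intro i hi
            have h1 : cap (D ω) i := (Finset.mem_filter.1 hi).2
            have h2 := h1.2.2.2.1
            unfold InRect at h2
            simpa using h2)
        have hab : ε ^ (a + b) = ε ^ b * ε ^ a := by
          rw [Real.rpow_add hε0, mul_comm]
        have hpos : 0 < ε ^ b * ε ^ a := by positivity
        calc ((Finset.univ.filter fun i => cap (D ω) i).card : ℝ) * (1 / Fintype.card S.ι)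
            ≤ (36 * ε ^ b * ε ^ a / ε ^ 2) * (1 / Fintype.card S.ι) :=
              mul_le_mul_of_nonneg_right hpk (by positivity)
          _ = 36 * 1 / (ε ^ 2 * Fintype.card S.ι) * (ε ^ b * ε ^ a) := by
              field_simp
          _ ≤ 36 * B ^ 2 / (ε ^ 2 * Fintype.card S.ι) * (ε ^ b * ε ^ a) := by
              refine mul_le_mul_of_nonneg_right ?_ hpos.le
              refine div_le_div_of_nonneg_right ?_ (by positivity)
              nlinarith
          _ = _ := by rw [hc, hab]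
      have hlog : Real.log (P'.pr (fun ω' => cap (D ω) (T' ω'))) ≤ Real.log c - (a + b) * lg ε := by
        refine (Real.log_le_log hπ0 hπ).trans (le_of_eq ?_)
        rw [Real.log_mul hc0.ne' (by positivity), Real.log_rpow hε0, ka_log_eq_neg_lg ε]
        ring
      have hw : wt γ (geo (D ω)) ≤ a + b := by
        unfold wt
        nlinarith
      rw [neg_div, sub_neg_eq_add]
      have h3 : Real.log (P'.pr (fun ω' => cap (D ω) (T' ω'))) / lg ε
          ≤ Real.log c / lg ε - (a + b) := by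
        rw [div_le_iff₀ hℓ, sub_mul, div_mul_cancel₀ _ hℓ.ne']
        exact hlog
      linarith
    have h4 : P'.ev (fun ω => wt γ (geo (D ω))) - P'.mi T' D / lg ε
        ≤ P'.ev (fun ω => wt γ (geo (D ω)))
          - P'.ev (fun ω => - Real.log (P'.pr (fun ω' => cap (D ω) (T' ω')))) / lg ε := by
      have := div_le_div_of_nonneg_right hL3 hℓ.le
      linarith
    refine h4.trans ?_
    have h5 : P'.ev (fun ω => - Real.log (P'.pr (fun ω' => cap (D ω) (T' ω')))) / lg ε
        = P'.ev (fun ω => (- Real.log (P'.pr (fun ω' => cap (D ω) (T' ω')))) / lg ε) := by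
      simp only [FLaw.ev, Finset.sum_div, mul_div_assoc]
    rw [h5, ← ka_ev_sub, ← ka_ev_const P' (Real.log c / lg ε)]
    exact ka_ev_mono P' hpt
  · refine div_nonneg (Real.log_nonneg ?_) hℓ.le
    have hpk := ka_pack S.V (ε := ε) (p := B) (q := B) (th := 0) (0 : ℝ × ℝ) hε0
      (by linarith) (by linarith) hsep Finset.univ (by
        intro i _
        have := hV i
        simpa [ip, tang, nrm] using this)
    rw [Finset.card_univ] at hpk
    rw [hc, one_le_div (by positivity)]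
    rw [le_div_iff₀ (by positivity)] at hpk
    nlinarith

end Claimed.Agent.R227
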