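import Claimed.Agent.R227.EndA.Law
import Claimed.Agent.R227.EndA.Pack
import Claimed.Agent.R227.EndA.Cells

/-!
# Row 227 (Kakeya maximal), END227-A, file 5: the system of a family of slabs, the core inequality      (architect helper268)

`kaSys W V A tm m` : the finite system with law `W.law` on `ι × J`, particle `i`, time `tm j / 2^m`.
`ka_arith` : the final arithmetic.   `ka_core` : one instance of (4.5) at `ε = d`, `t = L = 1` gives `d² N ≤ C d^{-(γ+ν)} λ^{-3} |E|`.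
-/

set_option autoImplicit false

namespace Claimed.Agent.R227

open Claimed.Agent.R255
open Claims.C0388.Kakeya MeasureTheory
open scoped BigOperators ENNReal
open Classical

section system

variable {ι J : Type} [Fintype ι] [Fintype J] [Nonempty ι]

/-- the system of a weighted incidence matrix -/
noncomputable def kaSys (W : KaW ι J) (V A : ι → ℝ × ℝ) (tm : J → ℤ) (m : ℕ) : CSys where
  Ω := ι × J
  fin := inferInstance
  P := W.law
  ι := ι
  T := Prod.fst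
  V := V
  A := A
  c := fun ω => (tm ω.2 : ℝ) / 2 ^ m

/-- the read-out of a cell -/
noncomputable def kaGeo (tm : J → ℤ) (xc : J → ℝ × ℝ) (m : ℕ) (j : J) : Geo where
  b := 0
  a := 0
  tc := (tm j : ℝ) / 2 ^ m
  th := 0
  vc := 0
  xc := xc j

theorem ka_sys_eqns_cite : True := by
  have := @kaSys.eq_1
  have := @kaGeo.eq_1
  trivial

instance kaSys_fintype (W : KaW ι J) (V A : ι → ℝ × ℝ) (tm : J → ℤ) (m : ℕ) :
    Fintype (kaSys W V A tm m).ι := ‹Fintype ι›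

instance kaSys_nonempty (W : KaW ι J) (V A : ι → ℝ × ℝ) (tm : J → ℤ) (m : ℕ) :
    Nonempty (kaSys W V A tm m).ι := ‹Nonempty ι›

theorem ka_Ct (W : KaW ι J) (V A : ι → ℝ × ℝ) (tm : J → ℤ) (ε t : ℝ) :
    (kaSys W V A tm (tlev ε t)).Ct ε t = fun y : ι × J => tm y.2 := by
  funext y
  show ⌊(tm y.2 : ℝ) / 2 ^ (tlev ε t) * 2 ^ (tlev ε t)⌋ = tm y.2
  rw [div_mul_cancel₀ _ (by positivity), Int.floor_intCast]

/-- lower bound of the score. -/
theorem ka_score_ge (W : KaW ι J) (V A : ι → ℝ × ℝ) (tm : J → ℤ) (xc : J → ℝ × ℝ) {γ ε : ℝ}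
    (hε0 : 0 < ε) (hε1 : ε < 1) (mE : J → ℝ) (hE : ∀ i j, W.a i j ≤ mE j) {μ₀ vE σ : ℝ}
    (hμ₀ : 0 < μ₀) (hμ : ∀ i, μ₀ ≤ W.row i) (hvE : 0 < vE) (hsum : ∑ j, mE j ≤ vE) (hσ0 : 0 < σ)
    (hσ : ∀ i k, (∑ j, if tm j = k then W.a i j else 0) ≤ σ) :
    (- Real.log (vE / μ₀) + 2 * Real.log (μ₀ / σ)) / lg ε ≤
      (kaSys W V A tm (tlev ε 1)).score γ ε 1 (Γ := J) Prod.snd (kaGeo tm xc (tlev ε 1)) := by
  have hℓ := ka_lg_pos hε0 hε1
  have h1 := W.mi_le mE hE hμ₀ hμ hvE hsum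
  have h2 := W.entC_ge tm hμ₀ hμ hσ0 (by
    intro i k
    convert hσ i k)
  unfold CSys.score CSys.St
  rw [ka_Ct]
  have e1 : (kaSys W V A tm (tlev ε 1)).P.ev
      (fun ω => wt γ (kaGeo tm xc (tlev ε 1) (Prod.snd ω))) = 0 := by
    have : (fun ω : (kaSys W V A tm (tlev ε 1)).Ω => wt γ (kaGeo tm xc (tlev ε 1) (Prod.snd ω)))
        = fun _ => 0 := by
      funext ω
      simp [wt, kaGeo]
    rw [this, ka_ev_const]
  rw [e1]
  have h3 : (kaSys W V A tm (tlev ε 1)).P.mi (kaSys W V A tm (tlev ε 1)).T (Prod.snd : ι × J → J)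
      ≤ Real.log (vE / μ₀) := h1
  have h4 : Real.log (μ₀ / σ) ≤ (kaSys W V A tm (tlev ε 1)).P.entC (fun y : ι × J => tm y.2)
      (kaSys W V A tm (tlev ε 1)).T := h2
  have h5 := div_le_div_of_nonneg_right h3 hℓ.le
  have h6 := div_le_div_of_nonneg_right h4 hℓ.le
  rw [add_div, neg_div, mul_div_assoc]
  linarith

end system

/-- `2^(-tlev d 1) ≤ d`. -/
theorem ka_tlev {d : ℝ} (h0 : 0 < d) : 1 / (2 : ℝ) ^ (tlev d 1) ≤ d := by
  have h1 : Real.logb 2 (1 / d) ≤ (tlev d 1 : ℝ) := by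
    have h := Nat.le_ceil (1 * Real.logb 2 (1 / d))
    calc Real.logb 2 (1 / d) = 1 * Real.logb 2 (1 / d) := (one_mul _).symm
      _ ≤ _ := h
  have h2 : 1 / d ≤ (2 : ℝ) ^ (tlev d 1) := by
    have h3 : (2 : ℝ) ^ (Real.logb 2 (1 / d)) = 1 / d :=
      Real.rpow_logb (by norm_num) (by norm_num) (by positivity)
    rw [← h3, ← Real.rpow_natCast]
    exact Real.rpow_le_rpow_of_exponent_le (by norm_num) h1
  rw [div_le_iff₀ (by positivity)]
  rw [div_le_iff₀ h0] at h2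
  linarith

/-- the final arithmetic. -/
theorem ka_arith {d lam vE N C₁ c₂ γ ν : ℝ} (hd0 : 0 < d) (hd1 : d < 1) (hlam : 0 < lam)
    (hvE : 0 < vE) (hN : 0 < N) (hC₁ : 0 < C₁) (hc₂ : 0 < c₂)
    (h : (- Real.log (vE / (lam * d ^ 2)) + 2 * Real.log (lam * d ^ 2 / (c₂ * d ^ 3))) / lg d
      ≤ Real.log (C₁ / (d ^ 2 * N)) / lg d + γ * 1 + ν) :
    d ^ 2 * N ≤ C₁ * c₂ ^ 2 * d ^ (-(γ + ν)) * lam ^ (-3 : ℝ) * vE := by
  have hℓ := ka_lg_pos hd0 hd1
  have h1 : - Real.log (vE / (lam * d ^ 2)) + 2 * Real.log (lam * d ^ 2 / (c₂ * d ^ 3))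
      ≤ Real.log (C₁ / (d ^ 2 * N)) + (γ + ν) * lg d := by
    have := mul_le_mul_of_nonneg_right h hℓ.le
    rw [div_mul_cancel₀ _ hℓ.ne', add_mul, add_mul, div_mul_cancel₀ _ hℓ.ne'] at this
    linarith
  have hp : 0 < d ^ (-(γ + ν)) := Real.rpow_pos_of_pos hd0 _
  have e1 : (γ + ν) * lg d = Real.log (d ^ (-(γ + ν))) := by
    rw [Real.log_rpow hd0, ka_log_eq_neg_lg d]
    ring
  have e2 : - Real.log (vE / (lam * d ^ 2)) + 2 * Real.log (lam * d ^ 2 / (c₂ * d ^ 3))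
      = Real.log (lam ^ 3 / (c₂ ^ 2 * vE)) := by
    have a1 : - Real.log (vE / (lam * d ^ 2)) = Real.log (lam * d ^ 2 / vE) := by
      rw [← Real.log_inv, inv_div]
    have a2 : 2 * Real.log (lam * d ^ 2 / (c₂ * d ^ 3))
        = Real.log ((lam * d ^ 2 / (c₂ * d ^ 3)) ^ 2) := by
      rw [Real.log_pow]; norm_num
    rw [a1, a2, ← Real.log_mul (by positivity) (by positivity)]
    congr 1
    field_simp
  rw [e1, e2, ← Real.log_mul (by positivity) hp.ne'] at h1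
  have h2 := (Real.log_le_log_iff (by positivity) (by positivity)).1 h1
  have e3 : lam ^ (-3 : ℝ) = 1 / lam ^ 3 := by
    rw [Real.rpow_neg hlam.le, one_div]
    congr 1
    exact_mod_cast Real.rpow_natCast lam 3
  rw [e3]
  rw [div_le_iff₀ (by positivity)] at h2
  have h3 : C₁ / (d ^ 2 * N) * d ^ (-(γ + ν)) * (c₂ ^ 2 * vE)
      = (C₁ * c₂ ^ 2 * d ^ (-(γ + ν)) * vE) / (d ^ 2 * N) := by
    field_simp
  rw [h3, le_div_iff₀ (by positivity)] at h2
  have h4 : C₁ * c₂ ^ 2 * d ^ (-(γ + ν)) * (1 / lam ^ 3) * vE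
      = (C₁ * c₂ ^ 2 * d ^ (-(γ + ν)) * vE) / lam ^ 3 := by
    field_simp
  rw [h4, le_div_iff₀ (by positivity)]
  linarith

end Claimed.Agent.R227
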